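import Vale.Agent.P207.N4.Dim
import Vale.Agent.P207.N4.H709.CalibG

/-!
# P207, line N3, row R20: the calibration over the closed 3-manifold
-/

set_option linter.unusedSectionVars false
set_option maxSynthPendingDepth 3

open scoped Manifold ContDiff ENNReal Topology Matrix
open Bundle MeasureTheory Set Filter Metric

noncomputable section

namespace Vale.Agent.P207.N4.H709

open Vale.Agent.P207.N3 Vale.Agent.P207.N3.H709

variable [Dim]

open Vale.Agent.P255 (RMetric)
open Vale.Agent.P207.N4.Q Vale.Agent.P207.Q Vale.Agent.P207.Q.H130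
open H722

theorem dtT_cl (A : Matrix (Fin Dim.m) (Fin Dim.m) ℝ) (r : ℝ) :
    Vale.Agent.P207.H9.CrossM.dtT (fun u u' => r ^ 2 * inner ℝ (H618.cl A u) u') =
      r ^ (2 * Dim.m) * A.det := by
  have h : ∀ i j : Fin Dim.m, inner ℝ (H618.cl A (EuclideanSpace.single i 1))
      (EuclideanSpace.single j (1 : ℝ)) = A j i := by
    intro i j
    rw [H618.inner_cl]
    simp
  unfold Vale.Agent.P207.H9.CrossM.dtT
  simp only [h]
  have h2 : (Matrix.of fun i j : Fin Dim.m => r ^ 2 * A j i) = (r ^ 2) • A.transpose := by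
    ext i j
    simp
  rw [h2, Matrix.det_smul, Matrix.det_transpose, Fintype.card_fin, ← pow_mul]

variable {M : Type} [TopologicalSpace M] [ChartedSpace (EV (Dim.m + 1)) M] [IsManifold 𝓘(ℝ, EV (Dim.m + 1)) ∞ M]
  [CompactSpace M] [T2Space M] {g : RMetric (EV (Dim.m + 1)) M}
variable {Γ X B V : Type} [Group Γ] [MetricSpace X] [ProperSpace X] [MulAction Γ X]
  [IsIsometricSMul Γ X] [TopologicalSpace B] [CompactSpace B] [T2Space B] [MulAction Γ B]
  [ContinuousConstSMul Γ B] [MeasurableSpace B] [BorelSpace B]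
  [NormedAddCommGroup V] [NormedSpace ℝ V] [FiniteDimensional ℝ V]
variable {L : Leaf Γ X B} {Φ : ℝ → Fr g → Fr g} {fr : X → Fr g} {h : ℝ}

/-- the product of the areas at a frame and its inverse -/
theorem s_mul_eq (O : Over Φ L fr) {D : MDat g Φ} (R : RDat D h) {A : Area L} {W : Metr L}
    (hU : ∀ x, W.U x = H618.cl (D.U (fr x))) {r₀ : ℝ}
    (hs : ∀ x, A.s x 0 = r₀ ^ Dim.m * Real.exp (R.r ((fr x).ut 0))) (x : X) :
    A.s x 0 * A.s (L.flip x) 0 = Vale.Agent.P207.H9.CrossM.dtT (TF W r₀ x) := by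
  have h1 : TF W r₀ x = fun u u' => r₀ ^ 2 *
      inner ℝ (H618.cl (D.U (fr x) + D.U (flipF (fr x))) u) u' := by
    funext u u'
    unfold TF
    rw [hU, hU, O.flip, H618.cl_add, add_apply]
  rw [h1, dtT_cl, hs, hs, O.flip, ← D.S_eq, R.norm, Real.exp_add]
  ring

/-- **R20: the calibration of 662 at every frame over the base point.** -/
def calibR (I : GeoIn L V) (O : Over Φ L fr) {D : MDat g Φ} (R : RDat D h) {A : Area L}
    {W : Metr L} (hU : ∀ x, W.U x = H618.cl (D.U (fr x))) (Hs : HessIn I W)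
    (hs : ∀ x, A.s x 0 = I.r₀ ^ Dim.m * Real.exp (R.r ((fr x).ut 0)))
    (h_le : ∀ ξ η q, ξ ≠ η → A.D ξ η ≤ I.b ξ q + I.b η q) {x : X}
    (hx : ∀ ξ, I.b ξ (I.S.ft x) = 0) : H662.Calib L A :=
  calibG I Hs h_le hx (s_mul_eq O R hU hs x)

end Vale.Agent.P207.N4.H709
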