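import Vale.Agent.P207.H582.FinM
import Vale.Agent.P207.H832.N4.UR
import Vale.Agent.P207.N4.Geo.Over

/-!
# P207: the integrated Riccati equation

`integral_Km` : `∫ tr K = ∫ tr U²`; `sq_le_Km` : `h² ≤ m ∫ tr K` when `∫ tr U = h`.
-/

open scoped Manifold ContDiff ENNReal Topology Matrix
open Bundle MeasureTheory Set Filter

set_option maxSynthPendingDepth 3
set_option linter.unusedSectionVars false

noncomputable section

namespace Vale.Agent.P207.H709R

open Vale.Agent.P255 (RMetric)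
open Vale.Agent.P207 Vale.Agent.P207.Q Vale.Agent.P207.Q.H892 Vale.Agent.P207.Q.H545
open Vale.Agent.P207.Q.H130

section Mat

variable {m : ℕ}

/-- `(tr U)² ≤ m tr U²` for a symmetric matrix -/
theorem sq_trace_le {U : Matrix (Fin m) (Fin m) ℝ} (hU : Uᵀ = U) :
    U.trace ^ 2 ≤ m * (U * U).trace := by
  have h1 : (∑ i, U i i) ^ 2 ≤ m * ∑ i, U i i ^ 2 := by
    have h := sq_sum_le_card_mul_sum_sq (s := (Finset.univ : Finset (Fin m)))
      (f := fun i => U i i)
    simpa using h
  have h2 : ∑ i, U i i ^ 2 ≤ (U * U).trace := by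
    simp only [Matrix.trace, Matrix.diag_apply, Matrix.mul_apply]
    refine Finset.sum_le_sum fun i _ => ?_
    have h3 : ∀ j, U i j * U j i = U i j ^ 2 := fun j => by
      rw [← Matrix.transpose_apply U, hU, sq]
    simp only [h3]
    exact Finset.single_le_sum (f := fun j => U i j ^ 2) (fun j _ => sq_nonneg _)
      (Finset.mem_univ i)
  exact h1.trans (mul_le_mul_of_nonneg_left h2 (Nat.cast_nonneg m))

end Mat

section Int

variable {P : Type*} [TopologicalSpace P] [CompactSpace P] [MeasurableSpace P] [BorelSpace P]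
  {mP : Measure P} [IsProbabilityMeasure mP] {φ : ℝ → P → P}

/-- the integral of a derivative along a flow which preserves the measure is zero -/
theorem integral_deriv_zero (hmp : ∀ t, MeasurePreserving (φ t) mP mP)
    (hc : ∀ t, Continuous (φ t)) (h0 : ∀ x, φ 0 x = x)
    {F G : P → ℝ} (hF : Continuous F) (hG : Continuous G)
    (hd : ∀ x r, HasDerivAt (fun s => F (φ s x)) (G (φ r x)) r) : ∫ x, G x ∂mP = 0 := by
  obtain ⟨C, hC⟩ := (isCompact_univ (X := P)).exists_bound_of_continuousOn hG.continuousOn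
  have hint : ∀ f : P → ℝ, Continuous f → Integrable f mP := fun f hf =>
    hf.integrable_of_hasCompactSupport (HasCompactSupport.of_compactSpace _)
  have h1 := hasDerivAt_integral_of_dominated_loc_of_deriv_le (μ := mP)
    (F := fun s x => F (φ s x)) (F' := fun s x => G (φ s x)) (x₀ := (0 : ℝ)) (s := univ)
    (bound := fun _ => C) univ_mem
    (Eventually.of_forall fun s => (hF.comp (hc s)).aestronglyMeasurable)
    (hint _ (hF.comp (hc 0))) (hG.comp (hc 0)).aestronglyMeasurable
    (Eventually.of_forall fun x s _ => hC _ (mem_univ _)) (integrable_const _)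
    (Eventually.of_forall fun x s _ => hd x s)
  have h2 : (fun s => ∫ x, F (φ s x) ∂mP) = fun _ => ∫ x, F x ∂mP := by
    funext s
    have h3 := integral_map (μ := mP) (hmp s).measurable.aemeasurable (f := F)
      hF.aestronglyMeasurable
    rw [(hmp s).map_eq] at h3
    exact h3.symm
  have h4 := h1.2
  rw [h2] at h4
  have h5 := h4.unique (hasDerivAt_const (0 : ℝ) _)
  simpa only [h0] using h5

/-- `(∫ f)² ≤ ∫ f²` -/
theorem sq_integral_le {f : P → ℝ} (hf : Continuous f) :
    (∫ x, f x ∂mP) ^ 2 ≤ ∫ x, f x ^ 2 ∂mP := by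
  have hint : ∀ f : P → ℝ, Continuous f → Integrable f mP := fun f hf =>
    hf.integrable_of_hasCompactSupport (HasCompactSupport.of_compactSpace _)
  set c := ∫ x, f x ∂mP with hc
  have h1 : 0 ≤ ∫ x, (f x - c) ^ 2 ∂mP := integral_nonneg fun x => sq_nonneg _
  have h2 : ∫ x, (f x - c) ^ 2 ∂mP = ∫ x, f x ^ 2 ∂mP - c ^ 2 := by
    have h3 : ∀ x, (f x - c) ^ 2 = (f x ^ 2 - 2 * c * f x) + c ^ 2 := fun x => by ring
    simp_rw [h3]
    have i1 : Integrable (fun x => f x ^ 2) mP := hint _ (hf.pow 2)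
    have i2 : Integrable (fun x => 2 * c * f x) mP := (hint _ hf).const_mul _
    have e1 : ∫ x, (f x ^ 2 - 2 * c * f x) + c ^ 2 ∂mP =
        ∫ x, (f x ^ 2 - 2 * c * f x) ∂mP + ∫ _, c ^ 2 ∂mP :=
      integral_add (i1.sub i2) (integrable_const _)
    have e2 : ∫ x, (f x ^ 2 - 2 * c * f x) ∂mP = ∫ x, f x ^ 2 ∂mP - ∫ x, 2 * c * f x ∂mP :=
      integral_sub i1 i2
    rw [e1, e2, integral_const_mul, integral_const, probReal_univ, ← hc]
    simp only [smul_eq_mul]
    ring
  linarith

end Int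

variable {m : ℕ} {M : Type} [TopologicalSpace M] [ChartedSpace (EV (m + 1)) M]
  [IsManifold 𝓘(ℝ, EV (m + 1)) ∞ M] [CompactSpace M] [T2Space M] {g : RMetric (EV (m + 1)) M}

/-- **the integrated Riccati equation** `∫ tr K = ∫ tr U²` -/
theorem integral_Km [MeasurableSpace M] [BorelSpace M] [SecondCountableTopology M]
    (H : HorFlows g) {ν : Measure (UT g)} {mP : Measure (Fr g)} (hP : IsMP ν mP)
    {φ : ℝ → UT g → UT g} (hφ : IsGeoFlow g φ) (hmp : ∀ t, MeasurePreserving (φ t) ν ν)
    {lam B : ℝ} {U : Fr g → Matrix (Fin m) (Fin m) ℝ} (hU : IsUR (H.Φ 0) lam B U)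
    (hUc : Continuous U) :
    ∫ f, (Km g f).trace ∂mP = ∫ f, (U f * U f).trace ∂mP := by
  have := hP.prob
  have hK : Continuous fun f : Fr g => (Km g f).trace := H832.N4.continuous_KmM.matrix_trace
  have hUU : Continuous fun f : Fr g => (U f * U f).trace := (hUc.matrix_mul hUc).matrix_trace
  have h1 := integral_deriv_zero (mP := mP) (φ := H.Φ 0) (F := fun f => (U f).trace)
    (G := fun f => (Km g f).trace - (U f * U f).trace) (H.mp_zero hP hφ hmp)
    (H.cont_t 0) (fun f => (H.hor 0).zero f) hUc.matrix_trace (hK.sub hUU) (fun f r => by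
      have h2 := HasDerivAt.fun_sum (u := Finset.univ) fun i _ => hU.ric f r i i
      simp only [Finset.sum_sub_distrib] at h2
      exact h2)
  have hint : ∀ f : Fr g → ℝ, Continuous f → Integrable f mP := fun f hf =>
    hf.integrable_of_hasCompactSupport (HasCompactSupport.of_compactSpace _)
  rw [integral_sub (hint _ hK) (hint _ hUU)] at h1
  linarith

/-- **`h² ≤ m ∫ tr K`** when `∫ tr U = h` -/
theorem sq_le_Km [MeasurableSpace M] [BorelSpace M] [SecondCountableTopology M]
    (H : HorFlows g) {ν : Measure (UT g)} {mP : Measure (Fr g)} (hP : IsMP ν mP)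
    {φ : ℝ → UT g → UT g} (hφ : IsGeoFlow g φ) (hmp : ∀ t, MeasurePreserving (φ t) ν ν)
    {lam B : ℝ} {U : Fr g → Matrix (Fin m) (Fin m) ℝ} (hU : IsUR (H.Φ 0) lam B U)
    (hUc : Continuous U) {t : C(UT g, ℝ)} (ht : ∀ f : Fr g, t (f.ut 0) = (U f).trace) {h : ℝ}
    (hh : ∫ p, t p ∂ν = h) : h ^ 2 ≤ m * ∫ f, (Km g f).trace ∂mP := by
  have := hP.prob
  have h1 : ∫ f, (U f).trace ∂mP = h := by
    rw [← hh, ← hP.ut.map_eq,
      integral_map hP.ut.measurable.aemeasurable t.continuous.aestronglyMeasurable]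
    exact integral_congr_ae (Eventually.of_forall fun f => (ht f).symm)
  have hint : ∀ f : Fr g → ℝ, Continuous f → Integrable f mP := fun f hf =>
    hf.integrable_of_hasCompactSupport (HasCompactSupport.of_compactSpace _)
  have h2 := sq_integral_le (mP := mP) hUc.matrix_trace
  rw [integral_Km H hP hφ hmp hU hUc, ← integral_const_mul]
  rw [h1] at h2
  refine h2.trans (integral_mono (hint _ (hUc.matrix_trace.pow 2))
    ((hint _ (hUc.matrix_mul hUc).matrix_trace).const_mul _) fun f => ?_)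
  exact sq_trace_le (hU.symm (H.hor 0) f)

end Vale.Agent.P207.H709R

namespace Vale.Agent.P207.N4

open Vale.Agent.P255 (RMetric)
open Vale.Agent.P207.N4.Q Vale.Agent.P207.Q Vale.Agent.P207.Q.H130

variable [Dim] {M : Type} [TopologicalSpace M] [ChartedSpace (EV (Dim.m + 1)) M]
  [IsManifold 𝓘(ℝ, EV (Dim.m + 1)) ∞ M] [CompactSpace M] [T2Space M]
  {g : RMetric (EV (Dim.m + 1)) M}

/-- **`h² ≤ m ∫ tr K`** in the case of equality -/
theorem MDat.sq_le_Km [ConnectedSpace M] [MeasurableSpace M] [BorelSpace M] (H : HorFlows g)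
    (D : MDat g (H.Φ 0)) {φ : ℝ → UT g → UT g} (hφ : IsGeoFlow g φ) {μ : Measure M}
    {ν : Measure (UT g)} (hμ : IsRiemVol g μ) (hm : IsLiouville g μ ν) {h : ℝ}
    (hh : ∫ p, D.t p ∂ν = h) {mP : Measure (Fr g)} (hP : IsMP ν mP) :
    h ^ 2 ≤ Dim.m * ∫ f, (Km g f).trace ∂mP := by
  obtain ⟨h1, -, h2, -⟩ := H582.exists_setting hφ hμ hm
  exact H709R.sq_le_Km H hP hφ h2 D.ur D.cont D.t_eq hh

end Vale.Agent.P207.N4
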